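import Vale.Agent.P338.Main

namespace Vale.Agent.Results.P338.BelowNLogN

open Vale.Agent.P338

theorem result :
    (∃ A : MTM, A.out ≠ A.inp ∧ A.Multiplies ∧ ∃ κ C : ℝ, 0 < κ ∧
      ∀ n : ℕ, 2 ≤ n → (A.T n : ℝ) ≤ C * n * Real.log n ^ (1 - κ)) ∧
    ¬∀ A : MTM, A.Multiplies → ∃ (c : ℝ) (N : ℕ), 0 < c ∧ 2 ≤ N ∧
      ∀ n : ℕ, N ≤ n → c * n * Real.log n ≤ A.T n := by
  refine ⟨main, fun h => ?_⟩
  obtain ⟨A, -, hA, κ, C, hκ, hC⟩ := main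
  exact not_nlogn hκ hC (h A hA)

end Vale.Agent.Results.P338.BelowNLogN
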